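import Crest.Agent.X261.EnP.Defs
import Crest.Agent.X261.Pole.Inst
import Crest.Agent.X261.Two.UU
import Crest.Agent.X261.Cov.K
import Crest.Agent.X261.Rn.Defs

/-!
# Row 261, EN instance (helper58), file `Defs`

The concrete data of `EnP.Dat` on a foliated cover: charts `Ch`, sub-boxes `Oc`, transverse
coordinate `tc`, pole families `Xp`, weights `lamc`, translates `tr`, bad set `Sb`.
-/

set_option autoImplicit false
set_option linter.dupNamespace false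
set_option linter.unusedSectionVars false

open Set Filter Topology Metric

namespace Crest.Agent.X261.EnI

open Crest.Agent.X261.Two Crest.Agent.X261.BT Crest.Agent.X261.Pole Crest.Agent.X261.Top
open Crest.Agent.R275.Geo Crest.Agent.R275.Core144
open Crest.Agent.R273.Defs_333 Crest.Agent.R273.UCov_914
open Crest.Agent.R281.Kp_487 (KP pot)
open Crest.Agent.R273.Fock_243 (FI)

noncomputable section

section gen

variable {n : ℕ} {M : Type} [TopologicalSpace M] {A : Atl n M} {p r : ℕ}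

open Classical in
/-- the standard pole family of a plaque chart (junk outside the closed unit ball) -/
def Xp {H : KP A} {S : ES M} (hG : Geo S.toDS H) (P : PCh A p r) (y : Cn p) : PF S.ls :=
  if h : ‖y‖ ≤ 1 then P.pf1 hG h else P.pf1 hG (y := 0) (by simp)

variable {H : KP A} {S : ES M} (hG : Geo S.toDS H) (P : PCh A p r) {y : Cn p}

theorem Xp_eq (hy : ‖y‖ ≤ 1) : Xp hG P y = P.pf1 hG hy := dif_pos hy

theorem Xp_s0 (y : Cn p) : (Xp hG P y).s0 = 2 := by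
  unfold Xp; split_ifs <;> rfl

theorem Xp_F (hy : ‖y‖ ≤ 1) (s h : ℝ) : (Xp hG P y).F s h = P.F H y (rad s • 1) h := by
  rw [Xp_eq hG P hy]; rfl

variable {G : Type} [Group G] [MulAction G M] {𝒯 : Tube A G p} {ε : A.ι → M → FI n → ℂ}

/-- the sub-box of a foliated chart -/
def Oc (C : FCh 𝒯 r ε) : Set M := C.φ.source ∩ C.φ ⁻¹' (ball 0 1 ×ˢ ball 0 1)

/-- the transverse coordinate -/
def tc (C : FCh 𝒯 r ε) (x : M) : Cn p := (C.φ x).1

/-- the bad set -/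
def Sb (𝒯 : Tube A G p) : Set M := 𝒯.M0ᶜ ∪ 𝒯.Bad

theorem mem_Oc {C : FCh 𝒯 r ε} {x : M} :
    x ∈ Oc C ↔ x ∈ C.φ.source ∧ ‖(C.φ x).1‖ < 1 ∧ ‖(C.φ x).2‖ < 1 := by
  simp only [Oc, mem_inter_iff, mem_preimage, mem_prod, mem_ball_zero_iff]

theorem not_mem_Sb {x : M} : x ∉ Sb 𝒯 ↔ x ∈ 𝒯.M0 ∧ x ∉ 𝒯.Bad := by
  simp only [Sb, mem_union, mem_compl_iff, not_or, not_not]

theorem isOpen_Oc (C : FCh 𝒯 r ε) : IsOpen (Oc C) :=
  C.φ.isOpen_inter_preimage (isOpen_ball.prod isOpen_ball)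

theorem tc_lt {C : FCh 𝒯 r ε} {x : M} (hx : x ∈ Oc C) : ‖tc C x‖ < 1 := (mem_Oc.1 hx).2.1

end gen

variable {n : ℕ} {X : Type} [TopologicalSpace X] {A : Atl n X} {G : Type} [Group G]
  {D : MonD A G} {p r : ℕ}

/-- the foliated charts of `F` -/
abbrev Ch (F : Fol D p) (r : ℕ) : Type := FCh F.T r (upF D F.e)

/-- the weight of `h` in the frame `dt` -/
def lamc {F : Fol D p} (h : HM F.L) (C : Ch F r) (x : D.cov G) : ℝ :=
  Real.log (‖C.c x‖ ^ 2) - Real.log (h.w C.i.1 (D.pr x))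

theorem inv_symm (g : G) (q : A.ι × G) (z : Cn n) :
    g⁻¹ • ((D.atl G).e q).symm z = ((D.atl G).e (q.1, q.2 * g)).symm z := by
  change g⁻¹ • D.pt q.1 q.2 _ = D.pt q.1 (q.2 * g) _
  rw [D.deck_pt, inv_inv]

theorem smul_symm (g : G) (q : A.ι × G) (z : Cn n) :
    g • ((D.atl G).e q).symm z = ((D.atl G).e (q.1, q.2 * g⁻¹)).symm z :=
  D.deck_pt _ _ _ _

theorem diffOn_inv (g : G) {W : Type} [NormedAddCommGroup W] [NormedSpace ℂ W]
    {U : Set (D.cov G)} {f : D.cov G → W} {q q' : A.ι × G} (e : q' = (q.1, q.2 * g))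
    (h : DifferentiableOn ℂ (fun z => f (((D.atl G).e q').symm z))
      (((D.atl G).e q').target ∩ ((D.atl G).e q').symm ⁻¹' U)) :
    DifferentiableOn ℂ (fun z => f (g⁻¹ • ((D.atl G).e q).symm z))
      (((D.atl G).e q).target ∩ ((D.atl G).e q).symm ⁻¹' ((g⁻¹ • ·) ⁻¹' U)) := by
  subst e
  refine (h.mono fun z hz => ⟨hz.1, ?_⟩).congr fun z _ => by rw [inv_symm]
  have := hz.2
  rw [mem_preimage, mem_preimage, inv_symm] at this
  exact this

theorem holV_inv (g : G) {m : ℕ} {U : Set (D.cov G)} {f : D.cov G → Cn m}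
    (h : HolV (D.atl G) U f) : HolV (D.atl G) ((g⁻¹ • ·) ⁻¹' U) fun y => f (g⁻¹ • y) := fun q =>
  diffOn_inv g rfl (h (q.1, q.2 * g))

theorem dW_inv (g : G) (q : A.ι × G) {m : ℕ} (f : D.cov G → Cn m) (y : D.cov G) :
    dW (D.atl G) (q.1, q.2 * g⁻¹) (fun y => f (g⁻¹ • y)) y = dW (D.atl G) q f (g⁻¹ • y) := by
  unfold dW R275.OmT75.dl
  simp only [inv_symm, inv_mul_cancel_right]
  rfl

/-- the translate of a foliated chart by a deck transformation -/
def tr {F : Fol D p} (g : G) (C : Ch F r) : Ch F r where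
  i := (C.i.1, C.i.2 * g⁻¹)
  φ := (Homeomorph.smul g⁻¹).transOpenPartialHomeomorph C.φ
  sub y hy := by
    have h := C.sub (show g⁻¹ • y ∈ C.φ.source from hy)
    refine ⟨h.1, ?_⟩
    have h2 : D.co C.i.1 (g⁻¹ • y) = C.i.2 := h.2
    rw [D.co_deck, inv_inv] at h2
    exact eq_mul_inv_of_mul_eq h2
  tgt := C.tgt
  hol₁ := holV_inv g C.hol₁
  hol₂ := holV_inv g C.hol₂
  hol' := C.hol'
  c y := C.c (g⁻¹ • y)
  c_hol := diffOn_inv g (q' := C.i) (Prod.ext rfl (inv_mul_cancel_right _ _).symm) C.c_hol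
  c_ne y hy := C.c_ne _ hy
  gen y hy := (C.gen _ hy).trans
    (congrArg _ (dW_inv g C.i (fun y => (C.φ y).1) y).symm)
  plq y hy h0 z hz e := by
    have h := C.plq (g⁻¹ • y) hy (F.T.inv g⁻¹ y h0) (g⁻¹ • z) hz e
    rw [F.T.W_inv g⁻¹ y h0] at h
    exact smul_mem_smul_set_iff.1 h

variable {F : Fol D p} {g : G} {C : Ch F r} {x : D.cov G}

theorem tr_i : (tr g C).i = (C.i.1, C.i.2 * g⁻¹) := rfl

theorem tr_φ (x : D.cov G) : (tr g C).φ x = C.φ (g⁻¹ • x) := rfl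

theorem tr_source : x ∈ (tr g C).φ.source ↔ g⁻¹ • x ∈ C.φ.source := Iff.rfl

theorem tr_c (x : D.cov G) : (tr g C).c x = C.c (g⁻¹ • x) := rfl

theorem Oc_tr : g • x ∈ Oc (tr g C) ↔ x ∈ Oc C := by
  rw [mem_Oc, mem_Oc, tr_source, tr_φ, inv_smul_smul]

theorem tc_tr (x : D.cov G) : tc (tr g C) (g • x) = tc C x := by
  rw [tc, tc, tr_φ, inv_smul_smul]

theorem lamc_tr (h : HM F.L) (x : D.cov G) : lamc h (tr g C) (g • x) = lamc h C x := by
  rw [lamc, lamc, tr_c, inv_smul_smul]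
  rfl

theorem Sb_inv (hx : x ∈ Sb F.T) : g • x ∈ Sb F.T :=
  hx.imp (fun h h' => h (inv_smul_smul g x ▸ F.T.inv g⁻¹ _ h')) (F.T.bad_inv g x)

theorem pt_tr (q : Cn p × Cn r) : (pch (tr g C)).pt q = g • (pch C).pt q :=
  (smul_symm g C.i _).symm

theorem rho_tr (H : KP A) (q : Cn p × Cn r) :
    (pch (tr g C)).rho (Cov.K.pullKP D G H) q = (pch C).rho (Cov.K.pullKP D G H) q := rfl

theorem mem_F_tr {H : KP A} {y : Cn p} {B : Cn p →L[ℂ] Cn p} {h : ℝ} {f : D.cov G → ℝ} :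
    f ∈ (pch (tr g C)).F (Cov.K.pullKP D G H) y B h ↔
      (fun x => f (g • x)) ∈ (pch C).F (Cov.K.pullKP D G H) y B h := by
  simp only [PCh.mem_F, pt_tr, rho_tr]

end

end Crest.Agent.X261.EnI
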